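import Vale.Agent.P281.H603.TE.AlbE
import Vale.Agent.P281.H603.TE.FibE
import Vale.Agent.P281.H603.TE.Core
import Vale.Agent.P281.H125.Fib.Main
import Vale.Agent.P281.H303.UD.OrbCmp
import Vale.Agent.P281.H511.UL.Spec

/-!
# P281, project T-UL (helper349), block A0: `Alb0Stmt`
-/

open Set Filter Metric MeasureTheory Vale.Agent.P281 Vale.Agent.P281.H713 Vale.Agent.P272.K
open scoped Topology ContDiff Manifold ComplexConjugate NNReal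

set_option linter.all false

noncomputable section

namespace Vale.Agent.P281.H349.UL

open Vale.Agent.P281.H64 (Mark Qf Qf_eq bil_eq linV linV_apply functional_eq)
open Vale.Agent.P281.H64.TK Vale.Agent.P281.H603.K Vale.Agent.P281.H864.K
open Vale.Agent.P281.H64.TU (TameIn KTame TameBoundStmt NormStmt)
open Vale.Agent.P281.H603.TE
open Vale.Agent.P281.H125.Fib (IsCl D)
open Vale.Agent.P281.H969.K.FibN
open Vale.Agent.P281.H511.UL (IsAlb0 HasForms1 Alb0Stmt)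

attribute [local instance] ccs

/-- the functional with coefficients `s` -/
def fnl {g : ℕ} (s : Fin g → ℂ) : EuclideanSpace ℂ (Fin g) →L[ℂ] ℂ :=
  LinearMap.toContinuousLinearMap
    { toFun := fun v => ∑ j, s j * v j
      map_add' := fun v w => by
        rw [← Finset.sum_add_distrib]
        exact Finset.sum_congr rfl fun j _ => by
          show s j * (v j + w j) = _
          ring
      map_smul' := fun a v => by
        rw [RingHom.id_apply, smul_eq_mul, Finset.mul_sum]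
        exact Finset.sum_congr rfl fun j _ => by
          show s j * (a * v j) = _
          ring }

theorem fnl_apply {g : ℕ} (s : Fin g → ℂ) (v : Fin g → ℂ) :
    fnl s (WithLp.toLp 2 v) = ∑ j, s j * v j := rfl

variable {p d : ℕ} {Z Y : Type} [TopologicalSpace Z] [T2Space Z] [ChartedSpace (Cm (p + d)) Z]
  [IsManifold 𝓘(ℂ, Cm (p + d)) ω Z] [TopologicalSpace Y] [T2Space Y] [ChartedSpace (Cm p) Y]
  [IsManifold 𝓘(ℂ, Cm p) ω Y] {f : Z → Y}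
  {w : Chart (p + d) Z → Cm (p + d) → Matrix (Fin (p + d)) (Fin (p + d)) ℂ} {m n g : ℕ}
  {B : Matrix (Fin n) (Fin n) ℝ}

/-- the closed 1-forms of the coverings of the fibre -/
theorem forms1 (I : Inputs) (hd : 0 < d) (hf : ContMDiff 𝓘(ℂ, Cm (p + d)) 𝓘(ℂ, Cm p) ω f)
    (L : DLocE (p := p) (d := d) f w m B g) {y : Y} (hy : y ∈ L.U) (F : Type)
    [TopologicalSpace F] [T2Space F] [ChartedSpace (Cm d) F] (i : F → Z)
    (hi : H511.Surf.IsFibre (Cm (p + d)) (Cm d) f y i) (hk : ∀ x, (i ⁻¹' {x}).encard ≤ m)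
    (t₀ : F) : ∃ β : Z → EuclideanSpace ℂ (Fin g), L.IsLift (i t₀) β ∧
      ∀ η : F → (Cm d →L[ℂ] ℂ), IsCl η → ∃ l : EuclideanSpace ℂ (Fin g) →L[ℂ] ℂ,
        ∀ᶠ z in 𝓝 t₀, η z = J.dif (Cm d) (fun s => l (β (i s))) z := by
  have ht := L.hT' hy.2
  have hqd := qd_of_model L.model ht
  have hFc : CompactSpace F := hi.compact
  have hFn : ConnectedSpace F := hi.connected
  have hFm : IsManifold 𝓘(ℂ, Cm d) ω F := hi.manifold
  have hri : range (L.q (L.χ y)) = f ⁻¹' {y} := by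
    rw [range_of_model L.model ht, L.left_inv hy]
  set Q := L.q (L.χ y) with hQ
  have hib : ∀ x, i x ∈ f ⁻¹' {y} := fun x => hi.fibre x
  have hcov : IsCoveringMap fun x : F => (⟨i x, hib x⟩ : f ⁻¹' {y}) :=
    isCovering hqd hi.hol hi.immersion hri hib
  have hfinite : ∀ b : f ⁻¹' {y}, ((fun x : F => (⟨i x, hib x⟩ : f ⁻¹' {y})) ⁻¹' {b}).Finite := by
    intro b
    have h1 : IsClosed ((fun x : F => (⟨i x, hib x⟩ : f ⁻¹' {y})) ⁻¹' {b}) :=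
      isClosed_singleton.preimage hcov.continuous
    have h2 : DiscreteTopology ((fun x : F => (⟨i x, hib x⟩ : f ⁻¹' {y})) ⁻¹' {b}) :=
      (hcov b).discreteTopology_fiber
    exact h1.isCompact.finite ⟨h2⟩
  have hQy : ∀ e, Q e ∈ f ⁻¹' {y} := by
    intro e
    rw [← hri]
    exact ⟨e, rfl⟩
  set S₂ := L.shK hy with hS₂
  -- the point of `E`
  obtain ⟨e₀, he₀⟩ : i t₀ ∈ range Q := by
    rw [hri]
    exact hib t₀
  obtain ⟨κ₀, j₀, z₀, hz₀, hκ₀⟩ := S₂.cover e₀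
  have hz₀3 : z₀ ∈ ball (0 : Cm d) 3 := mem_ball_zero_iff.2 (by linarith)
  have hinvQ : ∀ (γ : L.Γ) e, Q (γ • e) = Q e := fun γ e => ((hqd.Qeq e (γ • e)).2 ⟨γ, rfl⟩).symm
  have he₁ : Q (S₂.σ j₀ z₀) = i t₀ := by
    rw [← he₀, ← hκ₀]
    exact (hinvQ (κ₀ : L.Γ) _).symm
  -- the lift
  have hLP : LocallyPathConnectedSpace L.E := locPath (L.𝓕.at _ ht)
  have hw : Continuous fun e => (⟨Q e, hQy e⟩ : f ⁻¹' {y}) := hqd.Qcont.subtype_mk _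
  obtain ⟨π, hcont, hπ', hπe, hcore⟩ := H603.TE.exists_lift (Γ := L.Γ) hcov hw
    (fun γ e => Subtype.ext (hinvQ γ e))
    (e₀ := S₂.σ j₀ z₀) (x₀ := t₀) (Subtype.ext he₁.symm) (hfinite _)
  have hπ : ∀ e, i (π e) = Q e := fun e => congrArg Subtype.val (hπ' e)
  have hm : ((fun x : F => (⟨i x, hib x⟩ : f ⁻¹' {y})) ⁻¹'
      {⟨Q (S₂.σ j₀ z₀), hQy _⟩}).ncard ≤ m := by
    have h1 : ((fun x : F => (⟨i x, hib x⟩ : f ⁻¹' {y})) ⁻¹' {⟨Q (S₂.σ j₀ z₀), hQy _⟩}) =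
        i ⁻¹' {Q (S₂.σ j₀ z₀)} := by
      ext x
      simp only [mem_preimage, mem_singleton_iff, Subtype.mk.injEq]
    have h2 := hk (Q (S₂.σ j₀ z₀))
    rw [h1]
    have h3 : (i ⁻¹' {Q (S₂.σ j₀ z₀)}).Finite := h1 ▸ hfinite ⟨Q (S₂.σ j₀ z₀), hQy _⟩
    rw [← h3.cast_ncard_eq] at h2
    exact_mod_cast h2
  have hinv : ∀ (κ : core L.Γ m) e, π (κ • e) = π e := fun κ e => hcore m hm κ κ.2 e
  set i₀ := (idx (core L.Γ m) L.𝓕.N j₀).1 with hi₀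
  set γ₀ : L.Γ := rep (core L.Γ m) (idx (core L.Γ m) L.𝓕.N j₀).2 with hγ₀
  have hσ : ∀ u, S₂.σ j₀ u = γ₀ • L.𝓕.σ i₀ (L.χ y) u := fun u => rfl
  have hQσ : ∀ j u, Q (S₂.σ j u) = Q (L.𝓕.σ (idx (core L.Γ m) L.𝓕.N j).1 (L.χ y) u) :=
    fun j u => hinvQ (rep (core L.Γ m) (idx (core L.Γ m) L.𝓕.N j).2) _
  have hqm : ∀ j, ∀ z ∈ ball (0 : Cm d) 3, MDifferentiableAt 𝓘(ℂ, Cm d) 𝓘(ℂ, Cm (p + d))
      (fun u => Q (L.𝓕.σ (idx (core L.Γ m) L.𝓕.N j).1 (L.χ y) u)) z := fun j z hz =>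
    (hqd.hol _ z hz).mdifferentiableAt (by simp)
  have hder : ∀ j, ∀ z ∈ ball (0 : Cm d) 3,
      MDifferentiableAt 𝓘(ℂ, Cm d) 𝓘(ℂ, Cm d) (fun u => π (S₂.σ j u)) z := by
    intro j z hz
    refine mdiff_lift (n := p + d) (i := i)
      (w := fun u => Q (L.𝓕.σ (idx (core L.Γ m) L.𝓕.N j).1 (L.χ y) u))
      (hi.hol _) (hi.immersion _)
      (hcont.continuousAt.comp (S₂.map_nhds j z hz).le) (hqm j z hz) fun u => ?_
    show i (π (S₂.σ j u)) = _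
    rw [hπ, hQσ]
  have hW : PiW S₂ π := ⟨hcont, hinv, hder⟩
  -- the coordinate
  have hfi : f (i t₀) = y := hi.fibre t₀
  have hx : f (i t₀) ∈ L.U := by rw [hfi]; exact hy
  have hxz : L.q (L.χ (f (i t₀))) (L.𝓕.σ i₀ (L.χ (f (i t₀))) z₀) = i t₀ := by
    rw [hfi, ← he₁]
    exact (hQσ j₀ z₀).symm
  obtain ⟨ζ, hζ, hζ0⟩ := L.exists_co hx hz₀3 hxz
  refine ⟨_, DLocE.exists_lift' hx γ₀ hζ, fun η hη => ?_⟩
  obtain ⟨G, c, hadd, hG⟩ := hW.exists_add hη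
  have hC2 := (I.c2 d L.E (core L.Γ m) S₂ _ hd (kah_fW _ L.kfam ht)).2
  obtain ⟨s, b', hs⟩ := exists_lin (L.bas _ hy.2) hC2 hadd
  refine ⟨fnl s, ?_⟩
  -- `ζ ∘ i`
  have hζi : ContMDiffAt 𝓘(ℂ, Cm d) 𝓘(ℂ, Cm d) ω (fun z => ζ (i z)) t₀ :=
    ContMDiffAt.comp (g := ζ) (f := i) t₀ hζ.1 (hi.hol t₀)
  have hζi' : ∀ᶠ z in 𝓝 t₀, ContMDiffAt 𝓘(ℂ, Cm d) 𝓘(ℂ, Cm d) ω (fun z => ζ (i z)) z :=
    (contMDiffAt_iff_contMDiffAt_nhds (by simp)).1 hζi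
  have hball : ∀ᶠ z in 𝓝 t₀, ζ (i z) ∈ ball (0 : Cm d) 3 :=
    hζi.continuousAt.eventually (isOpen_ball.mem_nhds hζ.2.1)
  have hco : ∀ᶠ z in 𝓝 t₀, Q (S₂.σ j₀ (ζ (i z))) = i z := by
    filter_upwards [hi.hol.continuous.continuousAt.eventually hζ.2.2] with z hz
    rw [hQσ]
    have h1 : f (i z) = y := hi.fibre z
    rw [h1] at hz
    exact hz
  -- `π ∘ σ ∘ ζ ∘ i = id`
  have hid : ∀ᶠ z in 𝓝 t₀, π (S₂.σ j₀ (ζ (i z))) = z := by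
    obtain ⟨O, hO, hOinj⟩ : ∃ O ∈ 𝓝 t₀, InjOn i O := by
      obtain ⟨O, hO, htO, hOi⟩ := hcov.isLocalHomeomorph.isLocallyInjective t₀
      exact ⟨O, hO.mem_nhds htO, fun a ha b hb hab => hOi ha hb (Subtype.ext hab)⟩
    have h1 : ContinuousAt (fun z => π (S₂.σ j₀ (ζ (i z)))) t₀ := by
      refine hcont.continuousAt.comp ?_
      have h2 : ContinuousAt (S₂.σ j₀) (ζ (i t₀)) := (S₂.map_nhds j₀ _ hζ.2.1).le
      exact ContinuousAt.comp (g := S₂.σ j₀) (f := fun z => ζ (i z)) h2 hζi.continuousAt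
    have h2 : π (S₂.σ j₀ (ζ (i t₀))) = t₀ := by rw [hζ0]; exact hπe
    have h3 : ∀ᶠ z in 𝓝 t₀, π (S₂.σ j₀ (ζ (i z))) ∈ O := h1.eventually (by
      show ∀ᶠ z in 𝓝 (π (S₂.σ j₀ (ζ (i t₀)))), z ∈ O
      rw [h2]; exact hO)
    filter_upwards [h3, hO, hco] with z h4 h5 h6
    exact hOinj h4 h5 (by rw [hπ]; exact h6)
  filter_upwards [hζi', hball, hid.eventually_nhds] with z h1 h2 h3
  set u := ζ (i z) with hu
  have hπu : π (S₂.σ j₀ u) = z := h3.self_of_nhds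
  have hζd : HasMFDerivAt 𝓘(ℂ, Cm d) 𝓘(ℂ, Cm d) (fun z => ζ (i z)) z
      (mfderiv 𝓘(ℂ, Cm d) 𝓘(ℂ, Cm d) (fun z => ζ (i z)) z) :=
    (h1.mdifferentiableAt (by simp)).hasMFDerivAt
  have hπd : HasMFDerivAt 𝓘(ℂ, Cm d) 𝓘(ℂ, Cm d) (fun v => π (S₂.σ j₀ v)) (ζ (i z))
      (D S₂ π j₀ (ζ (i z))) := (hder j₀ _ h2).hasMFDerivAt
  have hcomp := HasMFDerivAt.comp z hπd hζd
  have hidd : HasMFDerivAt 𝓘(ℂ, Cm d) 𝓘(ℂ, Cm d) ((fun v => π (S₂.σ j₀ v)) ∘ fun z => ζ (i z)) z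
      (ContinuousLinearMap.id ℂ (TangentSpace 𝓘(ℂ, Cm d) z)) :=
    (hasMFDerivAt_id z).congr_of_eventuallyEq h3
  have h5 : ∀ ξ : Cm d, D S₂ π j₀ (ζ (i z))
      (mfderiv 𝓘(ℂ, Cm d) 𝓘(ℂ, Cm d) (fun z => ζ (i z)) z ξ) = ξ := fun ξ =>
    congrArg (fun A : Cm d →L[ℂ] Cm d => A ξ)
      (hasMFDerivAt_unique hcomp hidd)
  have hGd : HasMFDerivAt 𝓘(ℂ, Cm d) 𝓘(ℂ, ℂ) (fun v => G (S₂.σ j₀ v)) (ζ (i z))
      ((η (π (S₂.σ j₀ (ζ (i z))))).comp (D S₂ π j₀ (ζ (i z)))) := (hG j₀ _ h2).hasMFDerivAt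
  have hc2 := HasMFDerivAt.comp z hGd hζd
  have hfun : (fun s' => fnl s ((fun z => (WithLp.toLp 2 (L.F (L.χ (f z))
      (γ₀ • L.𝓕.σ i₀ (L.χ (f z)) (ζ z))) : EuclideanSpace ℂ (Fin g))) (i s'))) =
      fun s' => ((fun v => G (S₂.σ j₀ v)) ∘ fun z => ζ (i z)) s' - b' := by
    funext s'
    have h6 : f (i s') = y := hi.fibre s'
    show fnl s (WithLp.toLp 2 (L.F (L.χ (f (i s'))) (γ₀ • L.𝓕.σ i₀ (L.χ (f (i s'))) (ζ (i s'))))) =
      G (S₂.σ j₀ (ζ (i s'))) - b'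
    rw [h6, fnl_apply, hs, hσ]
    ring
  have h7 := (hc2.sub (hasMFDerivAt_const (I := 𝓘(ℂ, Cm d)) (I' := 𝓘(ℂ, ℂ)) b' z)).mfderiv
  show η z = mfderiv 𝓘(ℂ, Cm d) 𝓘(ℂ, ℂ) _ z
  rw [hfun]
  ext1 ξ
  have h9 := congrArg (fun A : Cm d →L[ℂ] ℂ => A ξ) h7
  refine Eq.trans ?_ (Eq.trans h9 (sub_zero (η (π (S₂.σ j₀ (ζ (i z)))) (D S₂ π j₀ (ζ (i z))
    (mfderiv 𝓘(ℂ, Cm d) 𝓘(ℂ, Cm d) (fun z => ζ (i z)) z ξ))))).symm
  rw [h5 ξ]
  have h8 : π (S₂.σ j₀ (ζ (i z))) = z := hπu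
  rw [h8]

/-- **A0** -/
theorem alb0_of (I : Inputs) (hTB : TameBoundStmt) (hNo : NormStmt) : Alb0Stmt := by
  intro p d m Z Y _ _ _ _ _ _ _ _ f S w hd hf _ hP hconn hw hne
  obtain ⟨y₁, hy₁⟩ := hne
  obtain ⟨n, g, hn, B, hL⟩ := dglobE I hd m hf hw hP hconn hy₁
  choose L h1 h2 h3 using fun a : {y // y ∉ S} => hL a.1 a.2
  have h4 : ∀ a, a.1 ∈ (L a).U := fun a => ⟨h1 a, h2 a⟩
  choose hB D hD using fun a => (L a).F2_at I.f2 hd hn (h2 a)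
  have hSU : ∀ a y, y ∈ (L a).U → y ∉ S := by
    intro a y hy
    have h5 := h3 a _ hy.2
    rwa [(L a).left_inv hy] at h5
  refine ⟨g, n, Qf B, {y // y ∉ S}, fun a => (L a).U, fun a => (L a).π (D a),
    fun a x β => (L a).IsLift x β, ?_, ?_⟩
  · constructor
    · constructor
      · intro y
        constructor
        · intro hy
          exact ⟨⟨y, hy⟩, h4 ⟨y, hy⟩⟩
        · rintro ⟨a, ha⟩
          exact hSU a y ha
      · exact fun a => (L a).isOpen_U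
      · exact fun a x y hy => DLocE.hol_π I.f2 hd hn (D a) x hy
      · exact fun a y hy => DLocE.polarized I.f2 hd hn (D a) hy
    · intro x hx
      exact DLocE.coord (L := L ⟨f x, hx⟩) hf (h4 ⟨f x, hx⟩)
    · exact fun a x β hβ => hβ.1
    · exact fun a x hx => DLocE.exists_isLift hx
    · exact fun a x β hβ => DLocE.IsLift.hol hf hβ
    · exact fun a x β hβ => DLocE.IsLift.near hf hβ
    · exact fun a x β hβ l hl => H303.UD.full hβ l hl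
    · intro r K hr hK
      obtain ⟨A, hA⟩ := hTB d r K hd hr hK
      refine ⟨max A 0, fun a q v₀ hq hT hy => ?_⟩
      exact DLocE.boundE (L := L a) hNo I.f2 hd hn hr hA (D a) hq hT hy
    · intro a b x hx hx' β β' hβ hβ'
      exact DLocE.changeE I hd hn hf hw (L a) (L b) (D a) (D b) hx hx' hβ hβ'
  · intro y hy F _ _ _ i hi hk a ha t
    obtain ⟨β, hβ, h5⟩ := forms1 I hd hf (L a) ha F i hi hk t
    exact ⟨β, hβ, h5⟩

end Vale.Agent.P281.H349.UL
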