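import Vale.Agent.P281.H969.TL.Unit
import Vale.Agent.P281.H511.UL.Spec

/-!
# P281, project T-UL (helper349), block FX2: `FibXStmt`
-/

open Set Filter Metric MeasureTheory Vale.Agent.P281 Vale.Agent.P281.H713
open Vale.Agent.P281.H64
open Vale.Agent.P281.H969.TL (IsUnitAt IsUnitOn IsUnitF localEq_one)
open Vale.Agent.P281.H511.UL
open scoped Topology ContDiff Manifold

set_option linter.all false

noncomputable section

namespace Vale.Agent.P281.H349.UL

/-- **FX2** -/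
theorem fibX : FibXStmt := by
  intro p d n g q m r X Y F _ _ _ _ _ _ _ _ _ _ _ T f S Q ι U π L 𝒟 a i y hd hf hS hP hA hF1 h𝒟
    hDf hy hi hk hW hX
  have : CompactSpace F := hi.compact
  have : IsManifold 𝓘(ℂ, Cm d) ω F := hi.manifold
  obtain ⟨u, η, c, hu, hη, x, hx𝒟, h0, hs⟩ := hX
  obtain ⟨a₀, ha₀⟩ := (hA.cover y).1 hy
  obtain ⟨β, hβ, hl⟩ := hF1 F i hi hk a₀ ha₀ x
  choose l hl using fun s b => hl (η s b) (hη s b)
  choose W hWu cW hcW hWi using fun j => hW j (u j) (hu j)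
  have hcl : ∀ D ∈ 𝒟, IsClosed D := fun D hD => (h𝒟 D hD).1
  have hm0 : ((m.factorial : ℕ) : ℂ) ≠ 0 := Nat.cast_ne_zero.2 (Nat.factorial_ne_zero m)
  set χ := chartAt (Cm d) x with hχ
  have hxs : x ∈ χ.source := mem_chart_source (Cm d) x
  have hxi : χ.symm (χ x) = x := χ.left_inv hxs
  have hχs : ∀ v ∈ χ.target, ContMDiffAt 𝓘(ℂ, Cm d) 𝓘(ℂ, Cm d) ω χ.symm v := fun v hv =>
    (contMDiffOn_chart_symm (I := 𝓘(ℂ, Cm d)) (n := ω) (x := x)).contMDiffAt
      (χ.open_target.mem_nhds hv)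
  have hvt : ∀ᶠ v in 𝓝 (χ x), v ∈ χ.target := χ.open_target.mem_nhds (χ.map_source hxs)
  have hχc : Tendsto χ.symm (𝓝 (χ x)) (𝓝 x) := by
    have := (hχs _ (χ.map_source hxs)).continuousAt.tendsto
    rwa [hxi] at this
  have hic : Tendsto (fun v => i (χ.symm v)) (𝓝 (χ x)) (𝓝 (i x)) :=
    (hi.hol.continuous.tendsto x).comp hχc
  have hoff : ∀ᶠ t in 𝓝 x, ∀ D ∈ 𝒟, i t ∉ D := by
    refine (Finset.eventually_all 𝒟).2 fun D hD => ?_
    exact hi.hol.continuous.continuousAt.eventually ((hcl D hD).isOpen_compl.mem_nhds (hx𝒟 D hD))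
  -- the units
  have hunit : ∀ᶠ t in 𝓝 x, ∀ j, ContMDiffAt 𝓘(ℂ, Cm d) 𝓘(ℂ, ℂ) ω (u j) t ∧ u j t ≠ 0 := by
    rw [eventually_all]
    intro j
    obtain ⟨h, h1, h2, h3⟩ := hu j x (fun _ _ => 1) fun D hD => localEq_one (hcl D hD) (hx𝒟 D hD)
    have h4 : u j =ᶠ[𝓝 x] h := by
      filter_upwards [h3, hoff] with t h5 h6
      rw [h5 h6]
      simp
    have h5 : ∀ᶠ t in 𝓝 x, ContMDiffAt 𝓘(ℂ, Cm d) 𝓘(ℂ, ℂ) ω h t :=
      (contMDiffAt_iff_contMDiffAt_nhds (by simp)).1 h1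
    have h6 : ∀ᶠ t in 𝓝 x, h t ≠ 0 :=
      (ContMDiffAt.continuousAt h1).eventually_ne h2
    filter_upwards [h5, h6, h4.eventually_nhds] with t h7 h8 h9
    have h9' : u j =ᶠ[𝓝 t] h := h9
    exact ⟨h7.congr_of_eventuallyEq h9', by rw [h9'.self_of_nhds]; exact h8⟩
  -- the lift
  have hβh : ∀ᶠ z in 𝓝 (i x), ContMDiffAt 𝓘(ℂ, Cm (p + d)) 𝓘(ℂ, EuclideanSpace ℂ (Fin g)) ω β z := by
    filter_upwards [hA.near a₀ (i x) β hβ] with z hz using hA.liftHol a₀ z β hz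
  have hηl : ∀ᶠ t in 𝓝 x, ∀ s b, η s b t = J.dif (Cm d) (fun s' => l s b (β (i s'))) t :=
    eventually_all.2 fun s => eventually_all.2 fun b => hl s b
  refine ⟨a₀, ha₀, W, hWu, fun v => i (χ.symm v), χ x, ?_, ?_, ?_, ?_⟩
  · exact ContMDiffAt.comp _ (g := i) (f := χ.symm) (hi.hol _) (hχs _ (χ.map_source hxs))
  · exact Eventually.of_forall fun v => hi.fibre _
  · intro D hD
    show i (χ.symm (χ x)) ∉ D
    rw [hxi]
    exact hx𝒟 D hD
  intro β' hβ'
  have hβ'' : L a₀ (i x) β' := by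
    have h1 : i (χ.symm (χ x)) = i x := by rw [hxi]
    rw [← h1]
    exact hβ'
  have hfx : f (i x) ∈ U a₀ := by rw [hi.fibre]; exact ha₀
  obtain ⟨G, c₀, -, hG⟩ := hA.change a₀ a₀ (i x) hfx hfx β β' hβ hβ''
  have hGv : ∀ᶠ v in 𝓝 (χ x), β' (i (χ.symm v)) = G (β (i (χ.symm v))) + c₀ := by
    filter_upwards [hic.eventually hG] with v hv
    exact hv (by rw [hi.fibre, hi.fibre])
  -- the coefficients
  have hkey : ∀ s : Fin (r + 1), (fun v => xcoef
      (fun b => (l s b).comp (G.symm : EuclideanSpace ℂ (Fin g) →L[ℂ] EuclideanSpace ℂ (Fin g)))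
      (fun b j => c s b j / (m.factorial : ℂ)) (fun v => β' (i (χ.symm v)))
      (fun j v => W j (i (χ.symm v))) v) =ᶠ[𝓝 (χ x)] fcoef u (η s) (c s) x := by
    intro s
    filter_upwards [hvt, hχc.eventually hunit, hχc.eventually hηl, hic.eventually hβh,
      hGv.eventually_nhds, (hχc.eventually hoff).eventually_nhds] with v h1 h2 h3 h4 h5 h6
    have hχv : MDifferentiableAt 𝓘(ℂ, Cm d) 𝓘(ℂ, Cm d) χ.symm v :=
      (hχs v h1).mdifferentiableAt (by simp)
    have hiv : MDifferentiableAt 𝓘(ℂ, Cm d) 𝓘(ℂ, Cm (p + d)) i (χ.symm v) :=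
      (hi.hol _).mdifferentiableAt (by simp)
    -- `β ∘ i ∘ χ⁻¹`
    have hβi : ContMDiffAt 𝓘(ℂ, Cm d) 𝓘(ℂ, EuclideanSpace ℂ (Fin g)) ω (fun t => β (i t))
        (χ.symm v) := ContMDiffAt.comp (g := β) (f := i) (χ.symm v) h4 (hi.hol _)
    have hβv : ContMDiffAt 𝓘(ℂ, Cm d) 𝓘(ℂ, EuclideanSpace ℂ (Fin g)) ω
        (fun v => β (i (χ.symm v))) v :=
      ContMDiffAt.comp (g := fun t => β (i t)) (f := χ.symm) v hβi (hχs v h1)
    have hβd : DifferentiableAt ℂ (fun v => β (i (χ.symm v))) v :=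
      hβv.contDiffAt.differentiableAt (by simp)
    have hβ'd : fderiv ℂ (fun v => β' (i (χ.symm v))) v =
        (G : EuclideanSpace ℂ (Fin g) →L[ℂ] EuclideanSpace ℂ (Fin g)).comp
          (fderiv ℂ (fun v => β (i (χ.symm v))) v) := by
      have h7 : (fun v => β' (i (χ.symm v))) =ᶠ[𝓝 v] fun v => G (β (i (χ.symm v))) + c₀ := h5
      rw [h7.fderiv_eq]
      exact ((((G : EuclideanSpace ℂ (Fin g) →L[ℂ] EuclideanSpace ℂ (Fin g)).hasFDerivAt).comp v
        hβd.hasFDerivAt).add_const c₀).fderiv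
    unfold xcoef fcoef
    congr 1
    ext b k
    simp only [Matrix.of_apply]
    congr 1
    · -- the forms
      rw [hβ'd]
      show l s b (G.symm (G (fderiv ℂ (fun v => β (i (χ.symm v))) v (Pi.single k 1)))) = _
      rw [G.symm_apply_apply, h3 s b]
      have e1 : HasMFDerivAt 𝓘(ℂ, Cm d) 𝓘(ℂ, ℂ) (fun t => l s b (β (i t))) (χ.symm v)
          (mfderiv 𝓘(ℂ, Cm d) 𝓘(ℂ, ℂ) (fun t => l s b (β (i t))) (χ.symm v)) := by
        have e2 : ContMDiffAt 𝓘(ℂ, Cm d) 𝓘(ℂ, ℂ) ω (fun t => l s b (β (i t))) (χ.symm v) :=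
          ContMDiffAt.comp (g := l s b) (f := fun t => β (i t)) (χ.symm v)
            (l s b).contDiff.contDiffAt.contMDiffAt hβi
        exact (e2.mdifferentiableAt (by simp)).hasMFDerivAt
      have e3 := (HasMFDerivAt.comp v e1 hχv.hasMFDerivAt).hasFDerivAt
      have e4 : HasFDerivAt (fun v => l s b (β (i (χ.symm v))))
          ((l s b).comp (fderiv ℂ (fun v => β (i (χ.symm v))) v)) v :=
        (l s b).hasFDerivAt.comp v hβd.hasFDerivAt
      exact congrArg (fun A : Cm d →L[ℂ] ℂ => A (Pi.single k 1)) (e4.unique e3)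
    · -- the units
      refine Finset.sum_congr rfl fun j _ => ?_
      obtain ⟨h7, h8⟩ := h2 j
      have e1 : ContMDiffAt 𝓘(ℂ, Cm d) 𝓘(ℂ, ℂ) ω (fun v => u j (χ.symm v)) v :=
        ContMDiffAt.comp (g := u j) (f := χ.symm) v h7 (hχs v h1)
      have e2 : HasFDerivAt (fun v => u j (χ.symm v)) (fderiv ℂ (fun v => u j (χ.symm v)) v) v :=
        (e1.contDiffAt.differentiableAt (by simp)).hasFDerivAt
      have e3 : (fun v => W j (i (χ.symm v))) =ᶠ[𝓝 v]
          fun v => cW j * u j (χ.symm v) ^ m.factorial := by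
        filter_upwards [h6] with v' hv'
        exact hWi j _ hv'
      have e4 := ((e2.pow m.factorial).const_mul (cW j)).fderiv
      have e5 : fderiv ℂ (fun v => W j (i (χ.symm v))) v (Pi.single k 1) =
          cW j * ((m.factorial : ℂ) * u j (χ.symm v) ^ (m.factorial - 1) *
            fderiv ℂ (fun v => u j (χ.symm v)) v (Pi.single k 1)) := by
        rw [e3.fderiv_eq]
        have e6 := congrArg (fun A : Cm d →L[ℂ] ℂ => A (Pi.single k 1)) e4
        refine e6.trans ?_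
        simp [nsmul_eq_mul]
      have e7 : W j (i (χ.symm v)) = cW j * u j (χ.symm v) ^ m.factorial :=
        hWi j _ h6.self_of_nhds
      rw [e5, e7]
      obtain ⟨N, hN⟩ : ∃ N, m.factorial = N + 1 := ⟨m.factorial - 1, by
        have := Nat.factorial_pos m
        omega⟩
      rw [hN] at hm0 ⊢
      rw [Nat.add_sub_cancel, pow_succ]
      have hc := hcW j
      have hu0 : u j (χ.symm v) ≠ 0 := h8
      rw [← hχ]
      field_simp
  refine ⟨fun s b => (l s b).comp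
    (G.symm : EuclideanSpace ℂ (Fin g) →L[ℂ] EuclideanSpace ℂ (Fin g)),
    fun s b j => c s b j / (m.factorial : ℂ), ?_, ?_⟩
  · intro h
    exact h0 ((hkey 0).self_of_nhds.symm.trans h)
  · intro ζ
    obtain ⟨ξ, hξ⟩ := hs ζ
    refine ⟨ξ, ?_⟩
    rw [← hξ]
    funext k
    have h1 := hkey 0
    have h2 := hkey k.succ
    have h3 := h2.div h1
    show fderiv ℂ _ (χ x) ξ = fderiv ℂ _ (χ x) ξ
    exact congrArg (fun A : Cm d →L[ℂ] ℂ => A ξ) h3.fderiv_eq

end Vale.Agent.P281.H349.UL
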